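import Vale.Agent.P011UGA.IF3
import Vale.Agent.P011UV1.Main

/-!
The choice of the Levi subgroup in type `D`.
-/

set_option autoImplicit false
set_option linter.all false
set_option maxSynthPendingDepth 3

namespace Vale.Agent.P011UGD4

open Matrix Sum Finset Vale.Agent.P183CH Vale.Agent.P011U Vale.Agent.P011UP Vale.Agent.P011UV1
  Vale.Agent.P011UGA

variable {n : ℕ} {R : RS} {e : Fin R.r ≃ Fin (n + 1)}

theorem ph_pq (hT : Ty R (CartanMatrix.D (n + 1)) e) (hn : 3 ≤ n) (i : Fin R.r) (δ : R.Q) :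
    ph e (pp (e i)) δ - ph e (qq (e i)) δ = R.pr δ i := by
  rw [ph, ph, ← sum_sub_distrib, RS.pr_eq]
  exact sum_congr rfl fun j _ => by rw [hT, cartan_symm, cartan hn, mul_sub]

theorem ph_sg (b : I n) (δ : R.Q) : ∑ a, ph e (inl a) δ * sg (inl a) b = ph e b δ := by
  rcases b with b | b
  · simp [sg]
  · rw [← swap_inl, ph_swap]
    simp [sg]

theorem ph_mu (hT : Ty R (CartanMatrix.D (n + 1)) e) (hn : 3 ≤ n) (i : Fin R.r) (δ : R.Q) :
    ∑ a, ph e (inl a) δ * mu (e i) (inl a) = R.pr δ i := by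
  simp only [mu, mul_sub, sum_sub_distrib, ph_sg, ph_pq hT hn]

theorem ph_α (a : I n) (i : Fin R.r) : ph e a (R.α i) = mu (e i) a := by
  simp [ph, RS.α_apply]

theorem nrm (hR : R.Ok) (hT : Ty R (CartanMatrix.D (n + 1)) e) (hn : 3 ≤ n) :
    ∀ γ ∈ R.Φ, ∑ a, ph e (inl a) γ ^ 2 = 2 := by
  have h0 : ∀ i, ∑ a, mu (e i) (inl a) ^ 2 = 2 := fun i => by
    have := ph_mu hT hn i (R.α i)
    rw [RS.pr_α, hR.diag] at this
    simpa only [ph_α, sq] using this
  refine rt_ind hR (fun i => by simpa only [ph_α] using h0 i) fun i γ _ h => ?_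
  have : ∀ a, ph e (inl a) (R.s i γ) ^ 2 = ph e (inl a) γ ^ 2 -
      2 * R.pr γ i * (ph e (inl a) γ * mu (e i) (inl a)) + R.pr γ i ^ 2 * mu (e i) (inl a) ^ 2 :=
    fun a => by rw [ph_s]; ring
  simp only [this, sum_add_distrib, sum_sub_distrib, ← mul_sum, ph_mu hT hn, h0, h]
  ring

theorem ph_inj (hR : R.Ok) (hT : Ty R (CartanMatrix.D (n + 1)) e) (hn : 3 ≤ n) {γ δ : R.Q}
    (h : ∀ a, ph e (inl a) γ = ph e (inl a) δ) : γ = δ := by
  exact hR.pr_inj (funext fun i => by simp only [← ph_mu hT hn, h])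

theorem two {ι : Type} [Fintype ι] [DecidableEq ι] {f : ι → ℤ} (h : ∑ a, f a ^ 2 = 2) {a b : ι}
    (hab : a ≠ b) (ha : f a ≠ 0) (hb : f b ≠ 0) :
    (f a = 1 ∨ f a = -1) ∧ (f b = 1 ∨ f b = -1) ∧ ∀ c, c ≠ a → c ≠ b → f c = 0 := by
  have k : ∀ s : Finset ι, ∑ a ∈ s, f a ^ 2 ≤ 2 := fun s =>
    h ▸ sum_le_sum_of_subset_of_nonneg (subset_univ s) fun _ _ _ => sq_nonneg _
  have h1 := k {a, b}
  rw [sum_pair hab] at h1
  have h2 : 1 ≤ f a ^ 2 := (one_le_sq_iff_one_le_abs _).2 (Int.one_le_abs ha)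
  have h3 : 1 ≤ f b ^ 2 := (one_le_sq_iff_one_le_abs _).2 (Int.one_le_abs hb)
  refine ⟨mul_self_eq_one_iff.1 (by rw [← sq]; omega), mul_self_eq_one_iff.1 (by rw [← sq]; omega),
    fun c h4 h5 => ?_⟩
  have h6 := k {c, a, b}
  rw [sum_insert (by simp [h4, h5]), sum_pair hab] at h6
  exact pow_eq_zero_iff two_ne_zero |>.1 (le_antisymm (by omega) (sq_nonneg _))

open Classical in
theorem four (hR : R.Ok) (hT : Ty R (CartanMatrix.D (n + 1)) e) (hn : 3 ≤ n) {a b : Fin (n + 1)}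
    (hab : a ≠ b) : (R.Φ.filter fun γ => ph e (inl a) γ ≠ 0 ∧ ph e (inl b) γ ≠ 0).card ≤ 4 := by
  refine (card_le_card_of_injOn (t := (univ : Finset (Bool × Bool)))
    (fun γ => (decide (0 < ph e (inl a) γ), decide (0 < ph e (inl b) γ))) (fun _ _ => by simp)
    fun γ hγ δ hδ c => ?_).trans (by simp)
  simp only [coe_filter, Set.mem_setOf_eq] at hγ hδ
  simp only [Prod.mk.injEq, decide_eq_decide] at c
  obtain ⟨h1, h2, h3⟩ := two (nrm hR hT hn γ hγ.1) hab hγ.2.1 hγ.2.2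
  obtain ⟨h4, h5, h6⟩ := two (nrm hR hT hn δ hδ.1) hab hδ.2.1 hδ.2.2
  refine ph_inj hR hT hn fun x => ?_
  by_cases c1 : x = a
  · subst c1
    omega
  by_cases c2 : x = b
  · subst c2
    omega
  · exact (h3 x c1 c2).trans (h6 x c1 c2).symm

/-- the entries of the Cartan matrix -/
def dd (i j : Fin 4) : ℤ := CartanMatrix.D 4 i j

set_option synthInstance.maxSize 1024 in
theorem d4 : ∀ σ : Equiv.Perm (Fin 4), (∀ i j, dd (σ i) (σ j) = dd i j) → σ * σ = 1 →
    ∃ τ : Equiv.Perm (Fin 4), (∀ i j, dd (τ i) (τ j) = dd i j) ∧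
      σ (τ 0) = τ 0 ∧ (σ (τ 2) = τ 2 ∧ σ (τ 3) = τ 3 ∨ σ (τ 2) = τ 3 ∧ σ (τ 3) = τ 2) := by
  decide +kernel

theorem d3 (i j : Fin 3) :
    CartanMatrix.D 3 i j = CartanMatrix.A 3 (Equiv.swap 0 1 i) (Equiv.swap 0 1 j) := by
  fin_cases i <;> fin_cases j <;> rfl

theorem nf (hT : Ty R (CartanMatrix.D (n + 1)) e) (hn : 3 ≤ n) {p : Equiv.Perm (Fin R.r)}
    (h : Dg R p) (h2 : p * p = 1) : ∃ e : Fin R.r ≃ Fin (n + 1), Ty R (CartanMatrix.D (n + 1)) e ∧
      p (e.symm 0) = e.symm 0 ∧ ∀ a b, a = e.symm ⟨n - 1, by omega⟩ → b = e.symm (Fin.last n) →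
        (p a = a ∧ p b = b ∨ p a = b ∧ p b = a) := by
  rcases hn.eq_or_lt with rfl | hn'
  · obtain ⟨τ, h3, h4, h5⟩ := d4 (e.permCongr p) (fun i j => by
      have := (hT _ _).symm.trans ((h (e.symm i) (e.symm j)).trans (hT _ _))
      rw [e.apply_symm_apply, e.apply_symm_apply] at this
      exact this) (by rw [← Equiv.permCongr_mul, h2]; exact Equiv.permCongr_refl e)
    simp only [Equiv.permCongr_apply, e.apply_eq_iff_eq_symm_apply] at h4 h5
    refine ⟨e.trans τ.symm, fun i j => ?_, h4, ?_⟩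
    · have := h3 (τ.symm (e i)) (τ.symm (e j))
      rw [τ.apply_symm_apply, τ.apply_symm_apply] at this
      exact (hT i j).trans this
    · rintro _ _ rfl rfl
      exact h5
  · refine ⟨e, hT, ?_, ?_⟩
    · rcases dg_cases hT hn' h with rfl | rfl
      · rfl
      · refine Equiv.swap_apply_of_ne_of_ne (fun c => ?_) fun c => ?_ <;>
          have := congrArg Fin.val (e.symm.injective c) <;> simp at this <;> omega
    · rintro _ _ rfl rfl
      rcases dg_cases hT hn' h with rfl | rfl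
      · exact .inl ⟨rfl, rfl⟩
      · exact .inr ⟨Equiv.swap_apply_left _ _, Equiv.swap_apply_right _ _⟩

theorem cn (hT : Ty R (CartanMatrix.D (n + 1)) e) (hn : 3 ≤ n) : Cn R {i | i ≠ e.symm 0} := by
  intro P i hi j hj h1 h2
  have h3 : ∀ a b : Fin (n + 1), a.1 ≠ 0 → b.1 ≠ 0 →
      (a.1 + 1 = b.1 ∧ b.1 < n ∨ a.1 + 2 = n ∧ b.1 = n) → (P (e.symm a) ↔ P (e.symm b)) :=
    fun a b ha hb c => by
      have m : ∀ a : Fin (n + 1), a.1 ≠ 0 → e.symm a ∈ {i | i ≠ e.symm 0} := fun a ha c =>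
        ha (congrArg Fin.val (e.symm.injective c))
      have d1 := D_spec hn a b
      have d2 := D_spec hn b a
      refine ⟨fun h => h2 _ (m a ha) _ (m b hb) h ?_, fun h => h2 _ (m b hb) _ (m a ha) h ?_⟩ <;>
        rw [hT, e.apply_symm_apply, e.apply_symm_apply] <;> omega
  have h4 : ∀ k (hk : k + 1 < n), (P (e.symm ⟨k + 1, by omega⟩) ↔ P (e.symm ⟨1, by omega⟩)) :=
    fun k => by
      induction k with
      | zero => exact fun _ => Iff.rfl
      | succ k ih =>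
        exact fun hk => (h3 ⟨k + 1, by omega⟩ _ (by simp) (by simp) (.inl ⟨rfl, hk⟩)).symm.trans
          (ih (by omega))
  have h5 : ∀ a ∈ {i | i ≠ e.symm 0}, (P a ↔ P (e.symm ⟨1, by omega⟩)) := fun a ha => by
    obtain ⟨⟨k, hk⟩, rfl⟩ := e.symm.surjective a
    rcases k with _ | k
    · exact absurd rfl ha
    by_cases c : k + 1 < n
    · exact h4 k c
    · exact (h3 ⟨n - 3 + 1, by omega⟩ _ (by simp) (by simp)
        (.inr ⟨by simp only; omega, by simp only; omega⟩)).symm.trans (h4 _ (by omega))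
  exact (h5 j hj).2 ((h5 i hi).1 h1)

theorem sub (hn : 3 ≤ n) (i j : Fin n) :
    CartanMatrix.D (n + 1) i.succ j.succ = CartanMatrix.D n i j := by
  have := i.2
  have := j.2
  simp only [CartanMatrix.D, of_apply, Fin.ext_iff, Fin.val_succ]
  split_ifs <;> omega

theorem adj0 (hT : Ty R (CartanMatrix.D (n + 1)) e) (hn : 3 ≤ n) {a b : Fin R.r}
    (ha : (e a).1 + 1 = n) (hb : (e b).1 = n) : R.A a b = 0 := by
  have := D_spec hn (e a) (e b)
  rw [hT]
  omega

theorem adj1 (hT : Ty R (CartanMatrix.D (n + 1)) e) (hn : 3 ≤ n) {a b : Fin R.r}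
    (h : (e a).1 + 1 = (e b).1 ∧ (e b).1 < n ∨ (e b).1 + 1 = (e a).1 ∧ (e a).1 < n ∨
      (e a).1 + 2 = n ∧ (e b).1 = n) : R.A a b = -1 := by
  have := D_spec hn (e a) (e b)
  rw [hT]
  omega

theorem cmd : CMD := by
  classical
  intro R hR n hn ⟨e0, hT0⟩ p hp hp2
  obtain ⟨n, rfl⟩ : ∃ m, n = m + 1 := ⟨n - 1, by omega⟩
  have hn : 3 ≤ n := by omega
  obtain ⟨e, hT, h1, h2⟩ := nf (R := R) hT0 hn hp hp2
  obtain ⟨a, ha⟩ : ∃ a, a = e.symm ⟨n - 1, by omega⟩ := ⟨_, rfl⟩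
  obtain ⟨b, hb⟩ : ∃ b, b = e.symm (Fin.last n) := ⟨_, rfl⟩
  obtain ⟨c, hc⟩ : ∃ c, c = e.symm ⟨n - 2, by omega⟩ := ⟨_, rfl⟩
  have ea : (e a).1 = n - 1 := by rw [ha, e.apply_symm_apply]
  have eb : (e b).1 = n := by rw [hb, e.apply_symm_apply, Fin.val_last]
  have ec : (e c).1 = n - 2 := by rw [hc, e.apply_symm_apply]
  have ab : R.A a b = 0 := adj0 hT hn (by omega) eb
  have ac : R.A a c = -1 := adj1 hT hn (by omega)
  have ca : R.A c a = -1 := adj1 hT hn (by omega)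
  have cb : R.A c b = -1 := adj1 hT hn (by omega)
  have h0 : ∀ i, (e i).1 ≠ 0 → i ≠ e.symm 0 := fun i h c => h (by rw [c]; simp)
  have hw : ∀ γ, pw (R.α a + R.α b) γ = R.pr γ a + R.pr γ b := fun γ => by
    simp [pw, RS.α_apply, mul_add, sum_add_distrib]
  have hr : R.r = n + 1 := by simpa using Fintype.card_congr e
  refine ⟨e.symm 0, R.α a + R.α b, 0, h1, fun i => ?_, .inl rfl, ⟨a, h0 a (by omega), ?_⟩, ?_,
    cn hT hn, n, ⟨fun i => e.symm i.succ, fun i j c => Fin.succ_injective _ (e.symm.injective c)⟩,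
    ?_, ?_⟩
  · have k : ∀ x y, p x = y → (p i = y ↔ i = x) := fun x y h => by rw [← h, p.apply_eq_iff_eq]
    rcases h2 a b ha hb with h | h
    · simp only [Pi.add_apply, RS.α_apply, k _ _ h.1, k _ _ h.2]
    · simp only [Pi.add_apply, RS.α_apply, k _ _ h.1, k _ _ h.2, add_comm]
  · rw [hw, RS.pr_α, RS.pr_α, hR.diag, zero_dvd_iff, ab]
    decide
  · have m1 : R.s c (R.α a) ∈ R.Φ.filter (R.In {i | i ≠ e.symm 0}) :=
      mem_filter.2 ⟨hR.refl _ _ (hR.simple _), fun i hi => by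
        obtain rfl : i = e.symm 0 := not_not.1 hi
        simp [RS.s, RS.α_apply, (h0 a (by omega)).symm, (h0 c (by omega)).symm]⟩
    have m2 : pw (R.α a + R.α b) (R.s c (R.α a)) = 0 := by
      rw [RS.s, sub_eq_add_neg, ← neg_smul, pw_add, pw_smul, hw, hw]
      simp only [RS.pr_α, hR.diag, ab, ac, ca, cb]
      rfl
    have m3 := four hR hT hn (a := 0) (b := ⟨n - 1, by omega⟩) fun c => by
      have := congrArg Fin.val c
      simp only [Fin.val_zero] at this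
      omega
    have m4 := card_erase_add_one m1
    refine lt_of_le_of_lt ((card_le_card (t := _ ∪ (R.Φ.filter (R.In {i | i ≠ e.symm 0})).erase
      (R.s c (R.α a))) fun γ hγ => ?_).trans ((card_union_le _ _).trans
        (Nat.add_le_add_right m3 _))) (by omega)
    obtain ⟨g1, g2⟩ := mem_filter.1 hγ
    rw [zero_dvd_iff] at g2
    by_cases z : γ (e.symm 0) = 0
    · refine mem_union_right _ (mem_erase.2 ⟨fun c => g2 (c ▸ m2), mem_filter.2 ⟨g1, fun i hi => ?_⟩⟩)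
      obtain rfl : i = e.symm 0 := not_not.1 hi
      exact z
    · refine mem_union_left _ (mem_filter.2 ⟨g1, by rwa [ph_zero (by omega)], fun z' => g2 ?_⟩)
      rw [hw, ← ph_pq hT hn, ← ph_pq hT hn, ha, hb, e.apply_symm_apply, e.apply_symm_apply]
      have q1 : pp (⟨n - 1, by omega⟩ : Fin (n + 1)) = inl ⟨n - 1, by omega⟩ := if_pos (by simp only; omega)
      have q2 : qq (⟨n - 1, by omega⟩ : Fin (n + 1)) = inl (Fin.last n) :=
        (dif_pos (by simp only; omega)).trans (congrArg inl (Fin.ext (by simp; omega)))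
      have q3 : pp (Fin.last n) = inl ⟨n - 1, by omega⟩ := if_neg (by simp)
      have q4 : qq (Fin.last n) = (inl (Fin.last n) : I n).swap := dif_neg (by simp)
      rw [q1, q2, q3, q4, ph_swap, z']
      ring
  · ext i
    obtain ⟨i, rfl⟩ := e.symm.surjective i
    exact ⟨fun ⟨j, c⟩ c' => Fin.succ_ne_zero j (e.symm.injective (Eq.trans c c')),
      fun c => ⟨i.pred fun c' => c (congrArg e.symm c'), congrArg e.symm (Fin.succ_pred _ _)⟩⟩
  · have k : ∀ i j : Fin n, R.A (e.symm i.succ) (e.symm j.succ) = CartanMatrix.D n i j :=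
      fun i j => by rw [hT, e.apply_symm_apply, e.apply_symm_apply, sub hn]
    rcases hn.eq_or_lt with rfl | hn'
    · exact .inr (.inr ⟨Equiv.swap 0 1, fun i j => (k i j).trans (d3 i j)⟩)
    · exact .inl (.inr (.inr (.inl ⟨n, hn', Equiv.refl _, k⟩)))

end Vale.Agent.P011UGD4
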